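import Vale.Agent.P322.HSlab

/-! Generated data: the closure for `ρ` in `[0/2^16, 16384/2^16]`. -/

namespace Vale.Agent.P322

theorem hslab0 {ρ : ℝ} (h1 : ((0 : ℕ) : ℝ) / DR ≤ ρ) (h2 : ρ ≤ ((16384 : ℕ) : ℝ) / DR) (h0 : 0 < ρ) :
    TClosure ρ :=
  slab_closure (R1 := 0) (R2 := 16384) (H := 113246208) (S0 := 226492416) (M1 := 163577856) (PL := 67108864)
    (by decide +kernel) (by decide +kernel) (by decide +kernel)
    (walkOK_sound (f := 60)
      (c := 59033955793566286820468437437285125355243794867179901443456617426349517660758778059855461622486260837740758245987256283818307880834645442093002403399737049509428201001367312124396147364906171738981375281686732420363995853686201881358262296033878643765146051177557999009668366692478642369328267257579535724572021745432075624339829014122605330558654377784965861384)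
      (by decide +kernel)) h1 h2 h0

end Vale.Agent.P322
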