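import Vale.Agent.P322.HSlab

/-! Generated data: the closure for `ρ` in `[16384/2^16, 26214/2^16]`. -/

namespace Vale.Agent.P322

theorem hslab1 {ρ : ℝ} (h1 : ((16384 : ℕ) : ℝ) / DR ≤ ρ) (h2 : ρ ≤ ((26214 : ℕ) : ℝ) / DR) (h0 : 0 < ρ) :
    TClosure ρ :=
  slab_closure (R1 := 16384) (R2 := 26214) (H := 81788928) (S0 := 163577856) (M1 := 146800640) (PL := 67108864)
    (by decide +kernel) (by decide +kernel) (by decide +kernel)
    (walkOK_sound (f := 60)
      (c := 4412848830874946441346769679133837956336392687497269385743477556356751107246817564303130683584581900173419571632252751843761982447178547853432368091304710915375613510338467956819653401464981439850660399439705244298057431454806666220599212311445463800567244921447563739642245929046727937248013532289771475758247443766629141105697788591564076763673778294812015656819909369839867500183450164888213297368956912833495797996523508349773600021913325456709713334109532380877720927290415900915064449726093707630556701994231652823224142086261613553326591754351895908360)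
      (by decide +kernel)) h1 h2 h0

end Vale.Agent.P322
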