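import Vale.Agent.P322.HSlab

/-! Generated data: the closure for `ρ` in `[26214/2^16, 32768/2^16]`. -/

namespace Vale.Agent.P322

theorem hslab2 {ρ : ℝ} (h1 : ((26214 : ℕ) : ℝ) / DR ≤ ρ) (h2 : ρ ≤ ((32768 : ℕ) : ℝ) / DR) (h0 : 0 < ρ) :
    TClosure ρ :=
  slab_closure (R1 := 26214) (R2 := 32768) (H := 60817408) (S0 := 121634816) (M1 := 134217728) (PL := 33554432)
    (by decide +kernel) (by decide +kernel) (by decide +kernel)
    (walkOK_sound (f := 60)
      (c := 114941170681215367042347266869038855354214567430716508876452908694582124696451077988112640518725376822891450581118147881720745863082948825707482019024665892417937793366525819269829380943355351130437628336806369402362073912082150234358534307887899028492466683435543313917495115027592931234491687567329159231255933750405734231294899339523782907574316235569464494623113291198902115567756717921693309807234898735219700874161659059387873940080289588339398582276166691351452873012343667981650532966765146184353489822379811496013752918284454580508130161482610288182405511542895189616997953720321861782705978501356944517571914868329301726260711067303838716613987432902021428108676152483391508901847065428316329823582027719681688792713930367994552958075743336568331623269847792822908656404312842384003305480)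
      (by decide +kernel)) h1 h2 h0

end Vale.Agent.P322
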