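import Vale.Agent.P322.HSlab

/-! Generated data: the closure for `ρ` in `[32768/2^16, 36045/2^16]`. -/

namespace Vale.Agent.P322

theorem hslab3 {ρ : ℝ} (h1 : ((32768 : ℕ) : ℝ) / DR ≤ ρ) (h2 : ρ ≤ ((36045 : ℕ) : ℝ) / DR) (h0 : 0 < ρ) :
    TClosure ρ :=
  slab_closure (R1 := 32768) (R2 := 36045) (H := 54525952) (S0 := 109051904) (M1 := 134217728) (PL := 33554432)
    (by decide +kernel) (by decide +kernel) (by decide +kernel)
    (walkOK_sound (f := 60)
      (c := 9106577750311126459522245708374804440369589282516922595253486807088932373042690014923334377223567949236118784135576305269679564025746528029352888888235922647695424995657319569911491168382994137128211149021535598658791836052122299724427152517118459165973149376739817423866884246838750088327674017793710996141086944794217478252832860646786296371256676185083814459669987768262754440824382925133515437778060572856426318934781024165196835340107837364338149262681999340833271191559182999046595851818590486130253480181386419609082694106312959888949848726045108307473412821128223171594356305379236915104002284271242413204856708784798782925881229586895270750998299431701007886511209436345675937317302892875054182978695143873348322427953192769685180150528229788279433400868751898358897818525753706737244744942454195804477546155477336072)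
      (by decide +kernel)) h1 h2 h0

end Vale.Agent.P322
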