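import Vale.Agent.P322.HSlab

/-! Generated data: the closure for `ρ` in `[36045/2^16, 39322/2^16]`. -/

namespace Vale.Agent.P322

theorem hslab4 {ρ : ℝ} (h1 : ((36045 : ℕ) : ℝ) / DR ≤ ρ) (h2 : ρ ≤ ((39322 : ℕ) : ℝ) / DR) (h0 : 0 < ρ) :
    TClosure ρ :=
  slab_closure (R1 := 36045) (R2 := 39322) (H := 39845888) (S0 := 79691776) (M1 := 121634816) (PL := 33554432)
    (by decide +kernel) (by decide +kernel) (by decide +kernel)
    (walkOK_sound (f := 60)
      (c := 7123372198608721664254881918293330066362303821105437662397889443546266288621553446377399022777550798241909754863113042419701109418425556004710370934671434026446707779646289757875057522556786111942251292409681730437422581379458127632734534079319423000403124103546699631070920592216411448182293993563218607336678581276486322626785557060450289171094344506630818436690584825121631378879357282467604985225737552907897397831283829262420460177110738302364287105527827179499727350213590105896351208689527229196612598948776532176892326045808715583658223659286556998492441836593428117857235560655496569062199944880819106921076250610679337143519721338126938085033037096477423849179256751752389166672498804466134158716092826803908825621821639049054522190509321522958967583425033512226087826030642248054937847026096526728986354708201909624232101632976356777706835775914966089722423413178929652672248726452823124497222011435997798053360154593522003566043213428900358509587026488773213283221296779076296100120310329065967604808092327241484195114130798507487056012826627919353832544937102876862052293242062315703567627821416453575843274273769022568589481532884676154658923485345884812557220346273969456562551247601729265998057880611421729382407636462318637419173169137198074969634106470044857422912650546061074165163311581884961287077896)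
      (by decide +kernel)) h1 h2 h0

end Vale.Agent.P322
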