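import Vale.Agent.P322.HSlab

/-! Generated data: the closure for `ρ` in `[39322/2^16, 40960/2^16]`. -/

namespace Vale.Agent.P322

theorem hslab5 {ρ : ℝ} (h1 : ((39322 : ℕ) : ℝ) / DR ≤ ρ) (h2 : ρ ≤ ((40960 : ℕ) : ℝ) / DR) (h0 : 0 < ρ) :
    TClosure ρ :=
  slab_closure (R1 := 39322) (R2 := 40960) (H := 37748736) (S0 := 75497472) (M1 := 125829120) (PL := 33554432)
    (by decide +kernel) (by decide +kernel) (by decide +kernel)
    (walkOK_sound (f := 60)
      (c := 853742673610194694569657917571071558109531485582052420176735275832005690279569067434965393282127633078252991496147920960119289701116152071452900327628310816941749003765716928043942785775086952669833773870112139336309298882963906928529491173662824661237473852108469452801177638185505942841468922793726272767445589833027813503525801731012986497883785255298041002402647622029788003186779956580153660253390531121815297578914926205809879611310596953522361654096724028103754992146474603796801160806458028749038527735996627812220485538055269690119961822866846036983473568095123531786229856809364502802461832882330619817157958778744117483574130397020484084494145598795115999840415569441484409254445100702859183368467707959273949093945399744090965763319925390455471890900091577446939537385213722480882050055207337893506051543984444026764941332548488163988176097552111784894250796103621219616628492346786723655719191394325248090886016271946226306573477640536779771293320015658780922834627115258713772635547812635976836773441362788019224182098173595986003560822906860503549278692852885034053114358120668377437105024150274929897643169454368381746375475346243828230752984357909545484080192599534922044403110958077879965854662317812413108232)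
      (by decide +kernel)) h1 h2 h0

end Vale.Agent.P322
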