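import Vale.Agent.P322.HSlab

/-! Generated data: the closure for `ρ` in `[40960/2^16, 42599/2^16]`. -/

namespace Vale.Agent.P322

theorem hslab6 {ρ : ℝ} (h1 : ((40960 : ℕ) : ℝ) / DR ≤ ρ) (h2 : ρ ≤ ((42599 : ℕ) : ℝ) / DR) (h0 : 0 < ρ) :
    TClosure ρ :=
  slab_closure (R1 := 40960) (R2 := 42599) (H := 31457280) (S0 := 62914560) (M1 := 117440512) (PL := 16777216)
    (by decide +kernel) (by decide +kernel) (by decide +kernel)
    (walkOK_sound (f := 60)
      (c := 12916935684725547648892605029290066059781522909655665237792582968578379970094725714453990503289727704356444988556242006360825188402382180026745326018890023329223076296338313241183996083299704265530951993647408530484656775118278100703956919672221243705579270409311593989829636216270513809189704665117433459274071738096853425745269968652606371508093999825791990061831304620846976674404147786109188572216308950344454241751349409200220804721009817407154748522598834464966463927525817220003774769335822510236867806212222484082641706249759723150924940748091096010456695319911153154073515161319616368626607569818265759420047002812634898269913684470537655607220907030359763259261376806926182677878151747907246479113601950311845726351894437222953546377195945343205576943825060073084483476317336393963220152891100507802550395647799150158664011534557162215049319045745160066714160926982386888150809783603639207965924791919746496271948210832683355782685655813118742169887209477017307536630472329657951512827702976427841680393843217874403154213482060476702987664417215087710867352688239660474600039361963167789820736438675311864949559985713095585710005239995601582422606487433879944927081995066512134288129875263732157373675921999733916638025140014666375229923823917361449803998110808877860088289843042835090536965967879844130971776270757517094178195279079890769575187461982798420903936287919507642693743603602673632768614259979477833980860784733578214606653439266822623063808569332945265534161349840567837583399886933156106224033993404641895498708215351720543507623534720997733427664159461128032344721690039383285996260983158788889561466258003107165563724323017669288938063399975251470361495563826362551197976721033323443559400922536520711378764995447801253896)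
      (by decide +kernel)) h1 h2 h0

end Vale.Agent.P322
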